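import Mathlib

/-!
Arithmetic core of the digit potential for four-term progressions.
-/

namespace Vale.Agent.Lib.P057.Four

/-- Admissible residues: even ones below `q / 3`, odd ones below `2 q / 9`. -/
def Adm (q w : ℤ) : Prop :=
  (w % 2 = 0 ∧ -q < 3 * w ∧ 3 * w < q) ∨ (w % 2 = 1 ∧ -(2 * q) < 9 * w ∧ 9 * w < 2 * q)

theorem Adm.bound {q w : ℤ} (h : Adm q w) : -q < 3 * w ∧ 3 * w < q := by
  unfold Adm at h
  omega

theorem sq_bound {q w : ℤ} (h : -q < 3 * w ∧ 3 * w < q) : 9 * w ^ 2 < q ^ 2 := by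
  obtain ⟨h1, h2⟩ := h
  nlinarith

/-- The multiple of `q` in a second difference is `-1`, `0` or `1`. -/
theorem second_diff_cases {q a b c k : ℤ} (hq : 0 < q) (ha : -q < 3 * a ∧ 3 * a < q)
    (hb : -q < 3 * b ∧ 3 * b < q) (hc : -q < 3 * c ∧ 3 * c < q) (h : a + c - 2 * b = q * k) :
    k = -1 ∨ k = 0 ∨ k = 1 := by
  have h1 : k < 2 := by
    by_contra hk
    have h2 : 2 ≤ k := by omega
    have h3 : q * 2 ≤ q * k := by gcongr
    omega
  have h2 : -2 < k := by
    by_contra hk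
    have h2 : k ≤ -2 := by omega
    have h3 : q * k ≤ q * (-2) := by gcongr
    omega
  omega

/-- The inequality for the digit potential. -/
theorem digit_arith {q w0 w1 w2 w3 C : ℤ} (hq : q % 2 = 1) (hq0 : 0 < q) (h0 : Adm q w0)
    (h1 : Adm q w1) (h2 : Adm q w2) (h3 : Adm q w3) (hd1 : q ∣ w0 + w2 - 2 * w1)
    (hd2 : q ∣ w1 + w3 - 2 * w2) (hne : w0 ≠ w1) (hC : q ^ 2 ≤ 9 * C) :
    w1 ^ 2 + w2 ^ 2 + (if w1 % 2 = 1 then C else 0) + (if w2 % 2 = 1 then C else 0) <
      w0 ^ 2 + w3 ^ 2 + (if w0 % 2 = 1 then C else 0) + (if w3 % 2 = 1 then C else 0) := by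
  obtain ⟨k1, hk1⟩ := hd1
  obtain ⟨k2, hk2⟩ := hd2
  have b0 := h0.bound
  have b1 := h1.bound
  have b2 := h2.bound
  have b3 := h3.bound
  have hk1c := second_diff_cases hq0 b0 b1 b2 hk1
  have hk2c := second_diff_cases hq0 b1 b2 b3 hk2
  have hCnn : 0 ≤ C := by nlinarith [sq_nonneg q]
  rcases hk1c with rfl | rfl | rfl <;> rcases hk2c with rfl | rfl | rfl
  all_goals simp only [mul_neg, mul_one, mul_zero] at hk1 hk2
  · -- both nonexact, signs (-,-)
    exfalso
    omega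
  · exfalso; omega
  · -- (-1, +1)
    have p1 : w1 % 2 = 0 := by unfold Adm at *; omega
    have p2 : w2 % 2 = 0 := by unfold Adm at *; omega
    have p0 : w0 % 2 = 1 := by omega
    have p3 : w3 % 2 = 1 := by omega
    have s1 := sq_bound b1
    have s2 := sq_bound b2
    simp only [p1, p2, p0, p3, if_true, zero_ne_one, if_false]
    nlinarith [sq_nonneg w0, sq_nonneg w3]
  · exfalso; omega
  · -- exact
    have e2 : w2 = 2 * w1 - w0 := by omega
    have e3 : w3 = 3 * w1 - 2 * w0 := by omega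
    have f2 : (w2 % 2 = 1) ↔ (w0 % 2 = 1) := by omega
    have f3 : (w3 % 2 = 1) ↔ (w1 % 2 = 1) := by omega
    rw [if_congr f2 rfl rfl, if_congr f3 rfl rfl]
    have hpos : 0 < (w1 - w0) ^ 2 := by
      have : w1 - w0 ≠ 0 := fun h => hne (by omega)
      positivity
    subst e2 e3
    nlinarith
  · exfalso; omega
  · -- (+1, -1)
    have p1 : w1 % 2 = 0 := by unfold Adm at *; omega
    have p2 : w2 % 2 = 0 := by unfold Adm at *; omega
    have p0 : w0 % 2 = 1 := by omega
    have p3 : w3 % 2 = 1 := by omega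
    have s1 := sq_bound b1
    have s2 := sq_bound b2
    simp only [p1, p2, p0, p3, if_true, zero_ne_one, if_false]
    nlinarith [sq_nonneg w0, sq_nonneg w3]
  · exfalso; omega
  · exfalso; omega

end Vale.Agent.Lib.P057.Four
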