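import Mathlib
import Vale.Agent.Lib.P057.Four.Arith

/-!
The digit set and digit potential in `ZMod q`, for `q` odd.
-/

namespace Vale.Agent.Lib.P057.Four

open Finset

variable {G H : Type*} [AddCommGroup G] [AddCommGroup H]

/-- `f` is a strict potential for four-term progressions in `K`: along a nonconstant progression
inside `K` the sum over the two outer terms exceeds the sum over the two inner terms. -/
def Good4 (K : Finset G) (f : G → ℕ) : Prop :=
  ∀ x ∈ K, ∀ t : G, x + t ∈ K → x + t + t ∈ K → x + t + t + t ∈ K → t ≠ 0 →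
    f (x + t) + f (x + t + t) < f x + f (x + t + t + t)

theorem Good4.weak {K : Finset G} {f : G → ℕ} (h : Good4 K f) {x t : G} (hx : x ∈ K)
    (h1 : x + t ∈ K) (h2 : x + t + t ∈ K) (h3 : x + t + t + t ∈ K) :
    f (x + t) + f (x + t + t) ≤ f x + f (x + t + t + t) := by
  by_cases ht : t = 0
  · subst ht
    simp
  · exact (h x hx t h1 h2 h3 ht).le

theorem Good4.prod {K₁ : Finset G} {K₂ : Finset H} {f₁ : G → ℕ} {f₂ : H → ℕ}
    (h₁ : Good4 K₁ f₁) (h₂ : Good4 K₂ f₂) :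
    Good4 (K₁ ×ˢ K₂) (fun x => f₁ x.1 + f₂ x.2) := by
  intro x hx t h1 h2 h3 ht
  simp only [mem_product, Prod.fst_add, Prod.snd_add] at hx h1 h2 h3
  simp only [Prod.fst_add, Prod.snd_add]
  have w1 := h₁.weak hx.1 h1.1 h2.1 h3.1
  have w2 := h₂.weak hx.2 h1.2 h2.2 h3.2
  by_cases ht1 : t.1 = 0
  · have ht2 : t.2 ≠ 0 := fun h => ht (Prod.ext ht1 h)
    have s2 := h₂ _ hx.2 _ h1.2 h2.2 h3.2 ht2
    omega
  · have s1 := h₁ _ hx.1 _ h1.1 h2.1 h3.1 ht1
    omega

/-- Transfer of a potential along an additive isomorphism. -/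
theorem Good4.map {K : Finset G} {f : G → ℕ} (h : Good4 K f) (e : G ≃+ H) :
    Good4 (K.map e.toEquiv.toEmbedding) (fun x => f (e.symm x)) := by
  intro x hx t h1 h2 h3 ht
  simp only [mem_map, Equiv.coe_toEmbedding, AddEquiv.toEquiv_eq_coe, EquivLike.coe_coe]
    at hx h1 h2 h3
  obtain ⟨x', hx', rfl⟩ := hx
  have key : ∀ {z : H}, (∃ a ∈ K, e a = z) → e.symm z ∈ K := by
    rintro z ⟨a, ha, rfl⟩
    simpa using ha
  have k1 := key h1
  have k2 := key h2
  have k3 := key h3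
  simp only [map_add, AddEquiv.symm_apply_apply] at k1 k2 k3
  have ht' : e.symm t ≠ 0 := by
    intro h0
    apply ht
    simpa using congrArg e h0
  have := h x' hx' (e.symm t) k1 k2 k3 ht'
  simpa only [map_add, AddEquiv.symm_apply_apply] using this

/-- Centered residue of `2 x`. -/
def wres (q : ℕ) (x : ZMod q) : ℤ := (2 * x).valMinAbs

open Classical in
/-- The digit set. -/
noncomputable def Kd (q : ℕ) [NeZero q] : Finset (ZMod q) :=
  univ.filter fun x => Adm (q : ℤ) (wres q x)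

/-- The digit potential. -/
noncomputable def fd (q : ℕ) (x : ZMod q) : ℕ :=
  (wres q x).natAbs ^ 2 + if wres q x % 2 = 1 then q ^ 2 / 9 + 1 else 0

theorem mem_Kd {q : ℕ} [NeZero q] {x : ZMod q} : x ∈ Kd q ↔ Adm (q : ℤ) (wres q x) := by
  simp [Kd]

theorem fd_cast (q : ℕ) (x : ZMod q) :
    (fd q x : ℤ) = (wres q x) ^ 2 + if wres q x % 2 = 1 then ((q ^ 2 / 9 + 1 : ℕ) : ℤ) else 0 := by
  unfold fd
  push_cast
  rw [sq_abs]

theorem wres_cast (q : ℕ) [NeZero q] (x : ZMod q) : ((wres q x : ℤ) : ZMod q) = 2 * x := by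
  unfold wres
  exact ZMod.coe_valMinAbs _

/-- In odd characteristic, doubling is injective. -/
theorem two_mul_eq_zero {q : ℕ} (hq : Odd q) {t : ZMod q} (h : 2 * t = 0) : t = 0 := by
  obtain ⟨m, hm⟩ := hq
  have hq0 : ((q : ℕ) : ZMod q) = 0 := ZMod.natCast_self q
  have h2 : ((2 * m + 1 : ℕ) : ZMod q) = 0 := by rw [← hm]; exact hq0
  push_cast at h2
  linear_combination t * h2 - (m : ZMod q) * h

theorem digit_good {q : ℕ} [NeZero q] (hq : Odd q) : Good4 (Kd q) (fd q) := by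
  intro x hx t h1 h2 h3 ht
  rw [mem_Kd] at hx h1 h2 h3
  have hq0 : (0 : ℤ) < q := by
    exact_mod_cast Nat.pos_of_ne_zero (NeZero.ne q)
  have hq2 : (q : ℤ) % 2 = 1 := by
    obtain ⟨m, hm⟩ := hq
    rw [hm]
    push_cast
    omega
  have hd1 : (q : ℤ) ∣ wres q x + wres q (x + t + t) - 2 * wres q (x + t) := by
    rw [← ZMod.intCast_zmod_eq_zero_iff_dvd]
    push_cast
    rw [wres_cast, wres_cast, wres_cast]
    ring
  have hd2 : (q : ℤ) ∣ wres q (x + t) + wres q (x + t + t + t) - 2 * wres q (x + t + t) := by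
    rw [← ZMod.intCast_zmod_eq_zero_iff_dvd]
    push_cast
    rw [wres_cast, wres_cast, wres_cast]
    ring
  have hne : wres q x ≠ wres q (x + t) := by
    intro h
    have h' := congrArg (fun z : ℤ => (z : ZMod q)) h
    simp only [wres_cast] at h'
    apply ht
    apply two_mul_eq_zero hq
    linear_combination -h'
  have hC : ((q : ℤ)) ^ 2 ≤ 9 * ((q ^ 2 / 9 + 1 : ℕ) : ℤ) := by
    have : q ^ 2 ≤ 9 * (q ^ 2 / 9 + 1) := by omega
    exact_mod_cast this
  have key := digit_arith hq2 hq0 hx h1 h2 h3 hd1 hd2 hne hC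
  zify
  rw [fd_cast, fd_cast, fd_cast, fd_cast]
  linarith

/-- The digit potential is at most `q ^ 2` on the digit set. -/
theorem fd_le {q : ℕ} [NeZero q] (hq2 : 2 ≤ q) {x : ZMod q} (hx : x ∈ Kd q) : fd q x ≤ q ^ 2 := by
  rw [mem_Kd] at hx
  have hb := hx.bound
  have hs := sq_bound hb
  have h1 : (fd q x : ℤ) ≤ (q : ℤ) ^ 2 := by
    rw [fd_cast]
    have hq' : (2 : ℤ) ≤ q := by exact_mod_cast hq2
    have h9 : ((q ^ 2 / 9 + 1 : ℕ) : ℤ) * 9 ≤ (q : ℤ) ^ 2 + 9 := by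
      have : (q ^ 2 / 9 + 1) * 9 ≤ q ^ 2 + 9 := by omega
      exact_mod_cast this
    split_ifs <;> nlinarith
  exact_mod_cast h1

/-- Half of one. -/
theorem half_mul {q : ℕ} (hq : Odd q) : 2 * (((q + 1) / 2 : ℕ) : ZMod q) = 1 := by
  obtain ⟨m, hm⟩ := hq
  have e : (q + 1) / 2 = m + 1 := by omega
  have hq0 : ((q : ℕ) : ZMod q) = 0 := ZMod.natCast_self q
  rw [e]
  have h2 : ((2 * m + 1 : ℕ) : ZMod q) = 0 := by rw [← hm]; exact hq0
  push_cast at h2 ⊢
  linear_combination h2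

/-- The element with prescribed residue. -/
theorem wres_of_int {q : ℕ} [NeZero q] (hq : Odd q) {y : ℤ} (hy : -(q : ℤ) < 2 * y)
    (hy2 : 2 * y < q) : wres q ((y : ZMod q) * (((q + 1) / 2 : ℕ) : ZMod q)) = y := by
  unfold wres
  have e : 2 * ((y : ZMod q) * (((q + 1) / 2 : ℕ) : ZMod q)) = (y : ZMod q) := by
    rw [mul_left_comm, half_mul hq, mul_one]
  rw [e, ZMod.valMinAbs_spec]
  refine ⟨rfl, ?_, ?_⟩ <;> linarith

/-- Size of the digit set. -/
theorem card_Kd {q : ℕ} [NeZero q] (hq : Odd q) : 5 * q ≤ 9 * (Kd q).card + 27 := by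
  by_cases h5 : q < 6
  · omega
  push Not at h5
  set h : ZMod q := (((q + 1) / 2 : ℕ) : ZMod q) with hh
  obtain ⟨a', ha1', ha2'⟩ : ∃ a' : ℕ, 6 * a' + 1 ≤ q ∧ q ≤ 6 * a' + 6 :=
    ⟨(q - 1) / 6, by omega, by omega⟩
  obtain ⟨b', hb1', hb2'⟩ : ∃ b' : ℕ, 18 * b' + 10 ≤ 2 * q ∧ 2 * q ≤ 18 * b' + 27 :=
    ⟨(2 * q - 10) / 18, by omega, by omega⟩
  obtain ⟨a, ha⟩ : ∃ a : ℤ, a = a' := ⟨_, rfl⟩
  obtain ⟨b, hb⟩ : ∃ b : ℤ, b = b' := ⟨_, rfl⟩
  have ha1 : 6 * a ≤ (q : ℤ) - 1 := by omega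
  have ha2 : (q : ℤ) - 6 ≤ 6 * a := by omega
  have hb1 : 18 * b ≤ 2 * (q : ℤ) - 10 := by omega
  have hb2 : 2 * (q : ℤ) - 27 ≤ 18 * b := by omega
  have ha0 : 0 ≤ a := by omega
  have hb0 : 0 ≤ b := by omega
  set E : Finset (ZMod q) := (Icc (-a) a).image fun u : ℤ => ((2 * u : ℤ) : ZMod q) * h with hE
  set O : Finset (ZMod q) := (Icc (-b - 1) b).image fun v : ℤ => ((2 * v + 1 : ℤ) : ZMod q) * h
    with hO
  have wE : ∀ u ∈ Icc (-a) a, wres q (((2 * u : ℤ) : ZMod q) * h) = 2 * u := by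
    intro u hu
    rw [mem_Icc] at hu
    exact wres_of_int hq (by omega) (by omega)
  have wO : ∀ v ∈ Icc (-b - 1) b, wres q (((2 * v + 1 : ℤ) : ZMod q) * h) = 2 * v + 1 := by
    intro v hv
    rw [mem_Icc] at hv
    exact wres_of_int hq (by omega) (by omega)
  have cE : E.card = (Icc (-a) a).card := by
    apply card_image_of_injOn
    intro u hu u' hu' e
    have h1 := wE u hu
    have h2 := wE u' hu'
    simp only at e
    rw [e, h2] at h1
    omega
  have cO : O.card = (Icc (-b - 1) b).card := by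
    apply card_image_of_injOn
    intro v hv v' hv' e
    have h1 := wO v hv
    have h2 := wO v' hv'
    simp only at e
    rw [e, h2] at h1
    omega
  have hdisj : Disjoint E O := by
    rw [Finset.disjoint_left]
    intro z hz hz'
    obtain ⟨u, hu, rfl⟩ := mem_image.1 hz
    obtain ⟨v, hv, e⟩ := mem_image.1 hz'
    have h1 := wE u hu
    have h2 := wO v hv
    rw [e, h1] at h2
    omega
  have hsub : E ∪ O ⊆ Kd q := by
    intro z hz
    rw [mem_Kd]
    rcases mem_union.1 hz with hz | hz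
    · obtain ⟨u, hu, rfl⟩ := mem_image.1 hz
      rw [wE u hu]
      rw [mem_Icc] at hu
      left
      refine ⟨by omega, by omega, by omega⟩
    · obtain ⟨v, hv, rfl⟩ := mem_image.1 hz
      rw [wO v hv]
      rw [mem_Icc] at hv
      right
      refine ⟨by omega, by omega, by omega⟩
  have hcard := card_le_card hsub
  rw [card_union_of_disjoint hdisj, cE, cO, Int.card_Icc, Int.card_Icc] at hcard
  have e1 : ((a + 1 - -a).toNat : ℤ) = 2 * a + 1 := by
    rw [Int.toNat_of_nonneg (by omega)]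
    ring
  have e2 : ((b + 1 - (-b - 1)).toNat : ℤ) = 2 * b + 2 := by
    rw [Int.toNat_of_nonneg (by omega)]
    ring
  have hz : ((5 * q : ℕ) : ℤ) ≤ ((9 * (Kd q).card + 27 : ℕ) : ℤ) := by
    have hc : (((a + 1 - -a).toNat + (b + 1 - (-b - 1)).toNat : ℕ) : ℤ) ≤ ((Kd q).card : ℤ) := by
      exact_mod_cast hcard
    push_cast at hc ⊢
    rw [e1, e2] at hc
    omega
  exact_mod_cast hz

end Vale.Agent.Lib.P057.Four
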