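import Mathlib
import Vale.Agent.Lib.P057.Four.Digit
import Vale.Agent.Lib.P057.Primes

/-!
From digit potentials to large subsets of an interval with no four-term progression.
-/

namespace Vale.Agent.Lib.P057.Four

open Finset

/-- No nontrivial four-term progression. -/
def Free4 (A : Finset ℕ) : Prop :=
  ∀ a d : ℕ, 0 < d → a ∈ A → a + d ∈ A → a + 2 * d ∈ A → a + 3 * d ∈ A → False

/-- From a potential on `ZMod L` to a large set in `range L`. -/
theorem exists_free_of_good {L : ℕ} [NeZero L] (K : Finset (ZMod L)) (f : ZMod L → ℕ)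
    (hK : Good4 K f) (F : ℕ) (hF : ∀ x ∈ K, f x ≤ F) :
    ∃ B : Finset ℕ, B ⊆ range L ∧ Free4 B ∧ K.card ≤ B.card * (F + 1) := by
  have hne : (range (F + 1)).Nonempty := ⟨0, mem_range.2 (Nat.succ_pos _)⟩
  obtain ⟨v, _, hv⟩ := exists_max_image (range (F + 1)) (fun v => (K.filter fun a => f a = v).card)
    hne
  have hmaps : ∀ a ∈ K, f a ∈ range (F + 1) := fun a ha => mem_range.2 (Nat.lt_succ_of_le (hF a ha))
  have hcard := card_le_mul_card_image_of_maps_to hmaps (K.filter fun a => f a = v).card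
    (fun w hw => hv w hw)
  set T : Finset (ZMod L) := K.filter fun a => f a = v with hT
  have hval : Function.Injective (ZMod.val : ZMod L → ℕ) := ZMod.val_injective L
  have key : (T.image ZMod.val).card = T.card := card_image_of_injective _ hval
  refine ⟨T.image ZMod.val, ?_, ?_, ?_⟩
  · intro x hx
    obtain ⟨y, _, rfl⟩ := mem_image.1 hx
    exact mem_range.2 (ZMod.val_lt y)
  · intro a d hd h0 h1 h2 h3
    obtain ⟨x0, hx0, e0⟩ := mem_image.1 h0
    obtain ⟨x1, hx1, e1⟩ := mem_image.1 h1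
    obtain ⟨x2, hx2, e2⟩ := mem_image.1 h2
    obtain ⟨x3, hx3, e3⟩ := mem_image.1 h3
    have hlt : x3.val < L := ZMod.val_lt x3
    have cast : ∀ (x : ZMod L) (n : ℕ), x.val = n → x = (n : ZMod L) := by
      intro x n h
      rw [← h, ZMod.natCast_zmod_val]
    set t : ZMod L := (d : ZMod L) with ht
    have hx0' := cast x0 _ e0
    have hx1' : x1 = x0 + t := by
      rw [cast x1 _ e1, hx0', ht]; push_cast; ring
    have hx2' : x2 = x0 + t + t := by
      rw [cast x2 _ e2, hx0', ht]; push_cast; ring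
    have hx3' : x3 = x0 + t + t + t := by
      rw [cast x3 _ e3, hx0', ht]; push_cast; ring
    have hne0 : t ≠ 0 := by
      rw [ht, Ne, ZMod.natCast_eq_zero_iff]
      intro hdvd
      have := Nat.le_of_dvd hd hdvd
      omega
    simp only [hT, mem_filter] at hx0 hx1 hx2 hx3
    rw [hx1'] at hx1
    rw [hx2'] at hx2
    rw [hx3'] at hx3
    have := hK x0 hx0.1 t hx1.1 hx2.1 hx3.1 hne0
    omega
  · rw [key]
    simpa using hcard

/-- Density at a larger scale transfers to a smaller one, with a factor two. -/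
theorem free_density {A : Finset ℕ} {L M : ℕ} (hA : A ⊆ range L) (hfree : Free4 A) (hM : 0 < M)
    (hML : M ≤ L) : ∃ B : Finset ℕ, B ⊆ range M ∧ Free4 B ∧ A.card * M ≤ 2 * L * B.card := by
  set k := L / M + 1 with hk
  have hne : (range k).Nonempty := ⟨0, mem_range.2 (Nat.succ_pos _)⟩
  obtain ⟨i, _, hi⟩ := exists_max_image (range k) (fun i => (A.filter fun a => a / M = i).card) hne
  have hmaps : ∀ a ∈ A, a / M ∈ range k := by
    intro a ha
    have h1 := mem_range.1 (hA ha)
    rw [mem_range, hk]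
    exact Nat.lt_succ_of_le (Nat.div_le_div_right h1.le)
  have hcard := card_le_mul_card_image_of_maps_to hmaps (A.filter fun a => a / M = i).card
    (fun w hw => hi w hw)
  set T := A.filter fun a => a / M = i with hT
  have hinj : Set.InjOn (fun a => a % M) (T : Set ℕ) := by
    intro a ha b hb e
    simp only [hT, coe_filter, Set.mem_setOf_eq] at ha hb
    simp only at e
    rw [← Nat.div_add_mod a M, ← Nat.div_add_mod b M, ha.2, hb.2, e]
  refine ⟨T.image fun a => a % M, ?_, ?_, ?_⟩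
  · intro x hx
    obtain ⟨y, _, rfl⟩ := mem_image.1 hx
    exact mem_range.2 (Nat.mod_lt _ hM)
  · intro a d hd h0 h1 h2 h3
    have lift : ∀ c, c ∈ T.image (fun a => a % M) → M * i + c ∈ A := by
      intro c hc
      obtain ⟨y, hy, rfl⟩ := mem_image.1 hc
      simp only [hT, mem_filter] at hy
      have : M * i + y % M = y := by
        rw [← hy.2, Nat.div_add_mod]
      rw [this]
      exact hy.1
    have l0 := lift _ h0
    have l1 := lift _ h1
    have l2 := lift _ h2
    have l3 := lift _ h3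
    apply hfree (M * i + a) d hd l0
    · convert l1 using 1; ring
    · convert l2 using 1; ring
    · convert l3 using 1; ring
  · rw [card_image_of_injOn hinj]
    have hk2 : k * M ≤ 2 * L := by
      have := Nat.div_mul_le_self L M
      rw [hk, Nat.succ_mul]
      omega
    calc A.card * M ≤ (T.card * k) * M := by
          apply Nat.mul_le_mul_right
          simpa using hcard
      _ = (k * M) * T.card := by ring
      _ ≤ (2 * L) * T.card := Nat.mul_le_mul_right _ hk2

/-- Assembly over `n` distinct primes from a finite set. -/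
theorem exists_good_zmod4 (cNum cDen Fp : ℕ) (s0 : Finset ℕ) (hs0 : ∀ p ∈ s0, p.Prime)
    (digit : ∀ p ∈ s0, ∃ K : Finset (ZMod p), ∃ f : ZMod p → ℕ,
      Good4 K f ∧ cNum * p ≤ cDen * K.card ∧ ∀ x ∈ K, f x ≤ Fp)
    (X : ℕ) (hX : ∀ p ∈ s0, X ≤ p) :
    ∀ (n : ℕ) (s : Finset ℕ), s ⊆ s0 → n ≤ s.card →
      ∃ L : ℕ, L ≠ 0 ∧ X ^ n ≤ L ∧ (∀ q : ℕ, q.Prime → q ∣ L → q ∈ s) ∧
        ∃ K : Finset (ZMod L), ∃ f : ZMod L → ℕ, Good4 K f ∧
          cNum ^ n * L ≤ cDen ^ n * K.card ∧ ∀ x ∈ K, f x ≤ n * Fp := by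
  intro n
  induction n with
  | zero =>
    intro s _ _
    refine ⟨1, one_ne_zero, by simp, ?_, {0}, fun _ => 0, ?_, by simp, by simp⟩
    · intro q hq hq1
      exact absurd (Nat.dvd_one.1 hq1) hq.one_lt.ne'
    · intro x _ t _ _ _ ht
      exact absurd (Subsingleton.elim t 0) ht
  | succ n ih =>
    intro s hs hcard
    obtain ⟨p, hp⟩ : s.Nonempty := card_pos.1 (by omega)
    set s' := s.erase p with hs'
    have hs'sub : s' ⊆ s0 := fun x hx => hs (mem_of_mem_erase hx)
    have hcard' : n ≤ s'.card := by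
      rw [hs', card_erase_of_mem hp]
      omega
    obtain ⟨L', hL'0, hL'X, hL'pr, K', f', hK', hc', hF'⟩ := ih s' hs'sub hcard'
    have hpP := hs0 p (hs hp)
    obtain ⟨K₁, f₁, hK₁, hc₁, hF₁⟩ := digit p (hs hp)
    have hpL : Nat.Coprime p L' := by
      rw [hpP.coprime_iff_not_dvd]
      intro hd
      have := hL'pr p hpP hd
      simp [hs'] at this
    set e : ZMod p × ZMod L' ≃+ ZMod (p * L') := (ZMod.chineseRemainder hpL).toAddEquiv.symm with he
    refine ⟨p * L', mul_ne_zero hpP.ne_zero hL'0, ?_, ?_,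
      (K₁ ×ˢ K').map e.toEquiv.toEmbedding, fun x => (fun y => f₁ y.1 + f' y.2) (e.symm x),
      (hK₁.prod hK').map e, ?_, ?_⟩
    · have hXp := hX p (hs hp)
      calc X ^ (n + 1) = X * X ^ n := by ring
        _ ≤ p * L' := by gcongr
    · intro r hr hrd
      rcases (Nat.Prime.dvd_mul hr).1 hrd with h | h
      · rw [(Nat.prime_dvd_prime_iff_eq hr hpP).1 h]; exact hp
      · exact mem_of_mem_erase (hL'pr r hr h)
    · rw [card_map, card_product]
      calc cNum ^ (n + 1) * (p * L') = (cNum * p) * (cNum ^ n * L') := by ring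
        _ ≤ (cDen * K₁.card) * (cDen ^ n * K'.card) := by gcongr
        _ = cDen ^ (n + 1) * (K₁.card * K'.card) := by ring
    · intro x hx
      simp only [mem_map] at hx
      obtain ⟨y, hy, rfl⟩ := hx
      simp only [mem_product] at hy
      have h1 := hF₁ _ hy.1
      have h2 := hF' _ hy.2
      simp only [Equiv.coe_toEmbedding, AddEquiv.toEquiv_eq_coe, EquivLike.coe_coe,
        AddEquiv.symm_apply_apply]
      calc f₁ y.1 + f' y.2 ≤ Fp + n * Fp := by omega
        _ = (n + 1) * Fp := by ring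

/-- The arithmetic core: dense sets with no four-term progression at every scale. -/
theorem core (X n M : ℕ) (hX1 : 20000 ≤ X) (hcard : n ≤ (primesIn X).card) (hM : 0 < M)
    (hMX : M ≤ X ^ n) : ∃ B : Finset ℕ, B ⊆ range M ∧ Free4 B ∧
      2777 ^ n * M ≤ 5000 ^ n * (2 * (n * (4 * X) ^ 2 + 1)) * B.card := by
  have hprime : ∀ p ∈ primesIn X, p.Prime := by
    intro p hp
    exact (mem_filter.1 hp).2
  have hrange : ∀ p ∈ primesIn X, X < p ∧ p ≤ 4 * X := by
    intro p hp
    exact mem_Ioc.1 (mem_filter.1 hp).1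
  have digit : ∀ p ∈ primesIn X, ∃ K : Finset (ZMod p), ∃ f : ZMod p → ℕ,
      Good4 K f ∧ 2777 * p ≤ 5000 * K.card ∧ ∀ x ∈ K, f x ≤ (4 * X) ^ 2 := by
    intro p hp
    have : NeZero p := ⟨(hprime p hp).ne_zero⟩
    obtain ⟨hp1, hp2⟩ := hrange p hp
    have hodd : Odd p := (hprime p hp).odd_of_ne_two (by omega)
    refine ⟨Kd p, fd p, digit_good hodd, ?_, ?_⟩
    · have := card_Kd hodd
      omega
    · intro x hx
      calc fd p x ≤ p ^ 2 := fd_le (by omega) hx
        _ ≤ (4 * X) ^ 2 := by gcongr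
  obtain ⟨L, hL0, hLX, _, K, f, hK, hc, hf⟩ :=
    exists_good_zmod4 2777 5000 ((4 * X) ^ 2) (primesIn X) hprime digit X
      (fun p hp => (hrange p hp).1.le) n (primesIn X) (Subset.refl _) hcard
  have : NeZero L := ⟨hL0⟩
  have hLpos : 0 < L := Nat.pos_of_ne_zero hL0
  obtain ⟨A, hA, hfree, hKA⟩ := exists_free_of_good K f hK (n * (4 * X) ^ 2) hf
  obtain ⟨B, hB, hBfree, hAB⟩ := free_density hA hfree hM (hMX.trans hLX)
  refine ⟨B, hB, hBfree, ?_⟩
  have h1 : L * (2777 ^ n * M) ≤ L * (5000 ^ n * (2 * (n * (4 * X) ^ 2 + 1)) * B.card) := by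
    calc L * (2777 ^ n * M) = (2777 ^ n * L) * M := by ring
      _ ≤ (5000 ^ n * K.card) * M := Nat.mul_le_mul_right _ hc
      _ ≤ (5000 ^ n * (A.card * (n * (4 * X) ^ 2 + 1))) * M := by gcongr
      _ = 5000 ^ n * (n * (4 * X) ^ 2 + 1) * (A.card * M) := by ring
      _ ≤ 5000 ^ n * (n * (4 * X) ^ 2 + 1) * (2 * L * B.card) := by gcongr
      _ = L * (5000 ^ n * (2 * (n * (4 * X) ^ 2 + 1)) * B.card) := by ring
  exact Nat.le_of_mul_le_mul_left h1 hLpos

end Vale.Agent.Lib.P057.Four
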