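import Mathlib
import Vale.Agent.Lib.P057.Four.Core

/-!
The analytic part: choice of parameters.
-/

namespace Vale.Agent.Lib.P057.Four

open Finset

theorem ratio_le_exp : (5000 : ℝ) ≤ 2777 * Real.exp (10 / 17) := by
  have h1 : (5000 / 2777 : ℝ) ≤ Real.exp (10 / 17) := by
    have h2 : ((5000 / 2777 : ℝ)) ^ 17 ≤ (Real.exp (10 / 17)) ^ 17 := by
      rw [← Real.exp_nat_mul]
      have e : ((17 : ℕ) : ℝ) * (10 / 17) = ((10 : ℕ) : ℝ) * 1 := by norm_num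
      rw [e, Real.exp_nat_mul]
      have h3 := Real.exp_one_gt_d9
      calc ((5000 / 2777 : ℝ)) ^ 17 ≤ (2.7182818283 : ℝ) ^ 10 := by norm_num
        _ ≤ (Real.exp 1) ^ 10 := by
          apply pow_le_pow_left₀ (by norm_num) h3.le
    exact (pow_le_pow_iff_left₀ (by norm_num) (Real.exp_pos _).le (by norm_num)).1 h2
  have h0 : (0 : ℝ) < 2777 := by norm_num
  rw [div_le_iff₀ h0] at h1
  linarith

theorem linear_le_exp {y : ℝ} (hy : 2080000000 ≤ y) : 260 * y ≤ Real.exp (y / 2000) := by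
  have hy0 : 0 ≤ y := by linarith
  have h0 := Real.quadratic_le_exp_of_nonneg (x := y / 2000) (by positivity)
  have h1 : 260 * y ≤ (y / 2000) ^ 2 / 2 := by nlinarith
  have h2 : 0 ≤ y / 2000 := by positivity
  linarith

theorem four_y_le_exp {y : ℝ} (hy : 512 ≤ y) : 4 * y ≤ Real.exp (y / 8) := by
  have hy0 : 0 ≤ y := by linarith
  have h0 := Real.quadratic_le_exp_of_nonneg (x := y / 8) (by positivity)
  have h1 : 4 * y ≤ (y / 8) ^ 2 / 2 := by nlinarith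
  have h2 : 0 ≤ y / 8 := by positivity
  linarith

theorem z_bounds {y n : ℝ} (hy : 0 < y) (hn1 : (461 / 250) * y ≤ n) (hn2 : n ≤ 2 * y) :
    y / 2 ≤ y ^ 2 / n ∧ 2 * (y ^ 2 / n) ≤ (500 / 461) * y := by
  have hn : 0 < n := by nlinarith
  constructor
  · rw [le_div_iff₀ hn]
    nlinarith
  · have e : 2 * (y ^ 2 / n) = 2 * y ^ 2 / n := by ring
    rw [e, div_le_iff₀ hn]
    nlinarith

/-- The final arithmetic in the reals. -/
theorem final_step {N r E y : ℝ} {k : ℕ} (hN : 0 < N) (hE : 0 < E)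
    (hmain : (2777 : ℝ) ^ k * N ≤ 5000 ^ k * E * r)
    (hkey : (5000 : ℝ) ^ k * E ≤ 2777 ^ k * Real.exp ((217 / 100) * y)) :
    N * Real.exp (-(217 / 100) * y) ≤ r := by
  have h10pos : (0 : ℝ) < 5000 ^ k * E := by positivity
  have hexpinv : Real.exp (-(217 / 100) * y) * Real.exp ((217 / 100) * y) = 1 := by
    rw [← Real.exp_add]
    have : -(217 / 100) * y + (217 / 100) * y = 0 := by ring
    rw [this, Real.exp_zero]
  have hexpneg : 0 < Real.exp (-(217 / 100) * y) := Real.exp_pos _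
  have hfinal : (5000 ^ k * E) * (N * Real.exp (-(217 / 100) * y)) ≤ (5000 ^ k * E) * r := by
    calc (5000 ^ k * E) * (N * Real.exp (-(217 / 100) * y))
        = ((5000 : ℝ) ^ k * E) * Real.exp (-(217 / 100) * y) * N := by ring
      _ ≤ (2777 ^ k * Real.exp ((217 / 100) * y)) * Real.exp (-(217 / 100) * y) * N := by gcongr
      _ = 2777 ^ k * N * (Real.exp (-(217 / 100) * y) * Real.exp ((217 / 100) * y)) := by ring
      _ = 2777 ^ k * N := by rw [hexpinv, mul_one]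
      _ ≤ 5000 ^ k * E * r := hmain
  exact le_of_mul_le_mul_left hfinal h10pos

theorem key_step {y z : ℝ} {k : ℕ} {E : ℝ} (hE2 : E ≤ Real.exp (y / 2000 + 2 * z))
    (hexpo : (10 / 17) * (k : ℝ) + (y / 2000 + 2 * z) ≤ (217 / 100) * y) (hE0 : 0 ≤ E) :
    (5000 : ℝ) ^ k * E ≤ 2777 ^ k * Real.exp ((217 / 100) * y) := by
  have h10 : (5000 : ℝ) ^ k ≤ 2777 ^ k * Real.exp ((10 / 17) * k) := by
    have h1 : Real.exp ((10 / 17) * k) = Real.exp (10 / 17) ^ k := by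
      rw [← Real.exp_nat_mul]
      congr 1
      ring
    rw [h1, ← mul_pow]
    exact pow_le_pow_left₀ (by norm_num) ratio_le_exp _
  calc (5000 : ℝ) ^ k * E ≤ (2777 ^ k * Real.exp ((10 / 17) * k)) * Real.exp (y / 2000 + 2 * z) := by
        gcongr
    _ = 2777 ^ k * Real.exp ((10 / 17) * k + (y / 2000 + 2 * z)) := by
        rw [Real.exp_add ((10 / 17) * (k : ℝ)) (y / 2000 + 2 * z)]; ring
    _ ≤ 2777 ^ k * Real.exp ((217 / 100) * y) := by
        gcongr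

theorem choose_params {N X0 : ℕ} {y : ℝ} (hNpos : 0 < N) (hyy : y ^ 2 = Real.log N)
    (hybig : 4000000000 ≤ y) (hyX0 : 4 * (X0 : ℝ) ≤ y) :
    ∃ (n X : ℕ) (z : ℝ), 20000 ≤ X ∧ X0 ≤ X ∧ (n : ℝ) ^ 2 ≤ X ∧ N ≤ X ^ n ∧
      (461 / 250 : ℝ) * y ≤ n ∧ (n : ℝ) < (461 / 250 : ℝ) * y + 1 ∧
      2 * z ≤ (500 / 461) * y ∧ y / 2 ≤ z ∧ (X : ℝ) ≤ 2 * Real.exp z := by
  have hNr : (0 : ℝ) < N := by exact_mod_cast hNpos
  have hypos : 0 < y := by linarith
  set n : ℕ := ⌈(461 / 250 : ℝ) * y⌉₊ with hn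
  have hn1 : (461 / 250 : ℝ) * y ≤ n := Nat.le_ceil _
  have hn2 : (n : ℝ) < (461 / 250 : ℝ) * y + 1 := Nat.ceil_lt_add_one (by positivity)
  have hnpos' : (0 : ℝ) < n := by nlinarith
  have hn2y : (n : ℝ) ≤ 2 * y := by linarith
  obtain ⟨hz1, hz2⟩ := z_bounds hypos hn1 hn2y
  set z : ℝ := y ^ 2 / n with hz
  have hzmul : z * n = Real.log N := by rw [hz, ← hyy]; field_simp
  set X : ℕ := ⌈Real.exp z⌉₊ with hX
  have hX1' : Real.exp z ≤ X := Nat.le_ceil _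
  have hexpz : 0 < Real.exp z := Real.exp_pos _
  have hX2' : (X : ℝ) < Real.exp z + 1 := Nat.ceil_lt_add_one hexpz.le
  have hexpz1 : 1 ≤ Real.exp z := by
    apply Real.one_le_exp
    have : 0 ≤ y / 2 := by positivity
    linarith
  have hexpy : y / 4 + 1 ≤ Real.exp (y / 4) := by
    have := Real.add_one_le_exp (y / 4)
    linarith
  have hexpzy : Real.exp (y / 4) ≤ Real.exp z := Real.exp_le_exp.2 (by linarith)
  have hXX1 : 20000 ≤ X := by
    have : (20000 : ℝ) ≤ X := by linarith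
    exact_mod_cast this
  have hXX0 : X0 ≤ X := by
    have : (X0 : ℝ) ≤ X := by linarith
    exact_mod_cast this
  have h8 : 4 * y ≤ Real.exp (y / 8) := four_y_le_exp (by linarith)
  have h88 : Real.exp (y / 8) ^ 2 = Real.exp (y / 4) := by
    rw [← Real.exp_nat_mul]
    congr 1
    push_cast
    ring
  have h2nsq : (n : ℝ) ^ 2 ≤ X := by
    have h1 : (n : ℝ) ≤ Real.exp (y / 8) := by linarith
    have h2 : (n : ℝ) ^ 2 ≤ Real.exp (y / 8) ^ 2 := by gcongr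
    linarith
  have hMX : N ≤ X ^ n := by
    have h1 : (N : ℝ) = Real.exp z ^ n := by
      rw [← Real.exp_nat_mul, ← Real.exp_log hNr]
      congr 1
      rw [← hzmul]
      ring
    have h2 : Real.exp z ^ n ≤ (X : ℝ) ^ n := by gcongr
    have h3 : (N : ℝ) ≤ ((X ^ n : ℕ) : ℝ) := by
      rw [h1]
      push_cast
      exact h2
    exact_mod_cast h3
  exact ⟨n, X, z, hXX1, hXX0, h2nsq, hMX, hn1, hn2, hz2, hz1, by linarith⟩

theorem E_bound {n X : ℕ} {y z : ℝ} (hybig : 4000000000 ≤ y)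
    (hn1 : (461 / 250 : ℝ) * y ≤ n) (hn2 : (n : ℝ) < (461 / 250 : ℝ) * y + 1) (hz1 : y / 2 ≤ z)
    (hXle : (X : ℝ) ≤ 2 * Real.exp z) :
    2 * ((n : ℝ) * (4 * (X : ℝ)) ^ 2 + 1) ≤ Real.exp (y / 2000 + 2 * z) := by
  have hypos : 0 < y := by linarith
  have hnpos' : (0 : ℝ) < n := by nlinarith
  have hn2y : (n : ℝ) ≤ 2 * y := by linarith
  have hX0r : (0 : ℝ) ≤ X := by positivity
  have hexpz : 0 < Real.exp z := Real.exp_pos _
  have h4X : (4 * (X : ℝ)) ^ 2 ≤ 64 * Real.exp (2 * z) := by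
    have h1 : (4 * (X : ℝ)) ^ 2 ≤ (4 * (2 * Real.exp z)) ^ 2 := by gcongr
    have h3 : Real.exp (2 * z) = Real.exp z ^ 2 := by
      rw [← Real.exp_nat_mul]
      push_cast
      rfl
    rw [h3]
    nlinarith
  have hn1r : (1 : ℝ) ≤ n := by
    have : 0 < n := by exact_mod_cast hnpos'
    exact_mod_cast this
  have hexp2z : 1 ≤ Real.exp (2 * z) := by
    apply Real.one_le_exp
    have : 0 ≤ y / 2 := by positivity
    linarith
  have hE1 : 2 * ((n : ℝ) * (4 * (X : ℝ)) ^ 2 + 1) ≤ 260 * y * Real.exp (2 * z) := by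
    have h1 : (n : ℝ) * (4 * (X : ℝ)) ^ 2 ≤ n * (64 * Real.exp (2 * z)) := by gcongr
    have h2 : (1 : ℝ) ≤ n * Real.exp (2 * z) := by nlinarith
    have h3 : (n : ℝ) * Real.exp (2 * z) ≤ (2 * y) * Real.exp (2 * z) := by gcongr
    nlinarith
  rw [Real.exp_add]
  have h1 := linear_le_exp (y := y) (by linarith)
  calc 2 * ((n : ℝ) * (4 * (X : ℝ)) ^ 2 + 1) ≤ 260 * y * Real.exp (2 * z) := hE1
    _ ≤ Real.exp (y / 2000) * Real.exp (2 * z) := by gcongr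

theorem final_four : ∃ N0 : ℕ, ∀ N : ℕ, N0 ≤ N → ∃ B : Finset ℕ, B ⊆ range N ∧ Free4 B ∧
    (N : ℝ) * Real.exp (-(217 / 100) * √(Real.log N)) ≤ B.card := by
  obtain ⟨X0, hX0⟩ := many_primes
  have hX00 : (0 : ℝ) ≤ X0 := by positivity
  set y0 : ℝ := 4000000000 + 4 * X0 with hy0
  have hy0pos : 0 < y0 := by rw [hy0]; positivity
  refine ⟨⌈Real.exp (y0 ^ 2)⌉₊ + 1, fun N hN => ?_⟩
  have hNpos : 0 < N := by omega
  have hNr : (0 : ℝ) < N := by exact_mod_cast hNpos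
  have hN1 : Real.exp (y0 ^ 2) ≤ N := by
    have h1 : Real.exp (y0 ^ 2) ≤ (⌈Real.exp (y0 ^ 2)⌉₊ : ℝ) := Nat.le_ceil _
    have h2 : ((⌈Real.exp (y0 ^ 2)⌉₊ : ℕ) : ℝ) ≤ N := by
      have : ⌈Real.exp (y0 ^ 2)⌉₊ ≤ N := by omega
      exact_mod_cast this
    linarith
  have hly0 : y0 ^ 2 ≤ Real.log N := (Real.le_log_iff_exp_le hNr).2 hN1
  have hl0 : 0 ≤ Real.log N := le_trans (sq_nonneg _) hly0
  set y : ℝ := √(Real.log N) with hy
  have hyy : y ^ 2 = Real.log N := Real.sq_sqrt hl0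
  have hyy0 : y0 ≤ y := Real.le_sqrt_of_sq_le hly0
  have hyX0 : 4 * (X0 : ℝ) ≤ y := by rw [hy0] at hyy0; linarith
  have hybig : 4000000000 ≤ y := by rw [hy0] at hyy0; linarith
  obtain ⟨n, X, z, hXX1, hXX0, h2nsq, hMX, hn1, hn2, hz2, hz1, hXle⟩ :=
    choose_params hNpos hyy hybig hyX0
  have hcardr := hX0 X hXX0
  have hcard : n ≤ (primesIn X).card := by
    have : (n : ℝ) ≤ √(X : ℝ) := Real.le_sqrt_of_sq_le h2nsq
    have h3 : (n : ℝ) ≤ (primesIn X).card := this.trans hcardr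
    exact_mod_cast h3
  obtain ⟨B, hB, hfree, hmain⟩ := core X n N hXX1 hcard hNpos hMX
  refine ⟨B, hB, hfree, ?_⟩
  have hmainr : (2777 : ℝ) ^ n * N ≤ 5000 ^ n * (2 * (n * (4 * (X : ℝ)) ^ 2 + 1)) * B.card := by
    exact_mod_cast hmain
  have hE2 := E_bound hybig hn1 hn2 hz1 hXle
  have hE0 : 0 < 2 * ((n : ℝ) * (4 * (X : ℝ)) ^ 2 + 1) := by positivity
  have hexpo : (10 / 17) * (n : ℝ) + (y / 2000 + 2 * z) ≤ (217 / 100) * y := by
    linarith
  exact final_step hNr hE0 hmainr (key_step hE2 hexpo hE0.le)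

/-- The statement on `{1, ..., N}`. -/
theorem final_four_Icc : ∃ N0 : ℕ, ∀ N : ℕ, N0 ≤ N → ∃ A : Finset ℕ, A ⊆ Icc 1 N ∧
    (∀ a d : ℕ, 0 < d → ¬ (a ∈ A ∧ a + d ∈ A ∧ a + 2 * d ∈ A ∧ a + 3 * d ∈ A)) ∧
    (N : ℝ) * Real.exp (-(217 / 100) * √(Real.log N)) ≤ A.card := by
  obtain ⟨N0, h⟩ := final_four
  refine ⟨N0, fun N hN => ?_⟩
  obtain ⟨B, hB, hfree, hcard⟩ := h N hN
  refine ⟨B.image (· + 1), ?_, ?_, ?_⟩
  · intro x hx
    obtain ⟨y, hy, rfl⟩ := mem_image.1 hx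
    have := mem_range.1 (hB hy)
    exact mem_Icc.2 ⟨by omega, by omega⟩
  · rintro a d hd ⟨h0, h1, h2, h3⟩
    obtain ⟨b0, hb0, e0⟩ := mem_image.1 h0
    have lift : ∀ c, a + c ∈ B.image (· + 1) → b0 + c ∈ B := by
      intro c hc
      obtain ⟨b, hb, e⟩ := mem_image.1 hc
      have : b = b0 + c := by omega
      rwa [← this]
    exact hfree b0 d hd hb0 (lift _ h1) (lift _ h2) (lift _ h3)
  · rw [card_image_of_injective _ (add_left_injective 1)]
    exact hcard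

end Vale.Agent.Lib.P057.Four
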